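import Vale.Agent.P144L.Defs
import Vale.Agent.P144D.Geo.B

/-!
Nets on the torus.
-/

namespace Vale.Agent.P144L.T

open Finset Matrix Vale.Agent.P144Z

theorem exists_net {M : ℕ} [NeZero M] (D : Finset (Tor M)) (s : ℕ) : ∃ F ⊆ D,
    (∀ x ∈ F, ∀ y ∈ F, x ≠ y → s < tdist x y) ∧ ∀ y ∈ D, ∃ x ∈ F, tdist y x ≤ s := by
  classical
  obtain ⟨F, hF, hmax⟩ := exists_max_image
    (D.powerset.filter fun F => ∀ x ∈ F, ∀ y ∈ F, x ≠ y → s < tdist x y) card ⟨∅, by simp⟩
  simp only [mem_filter, mem_powerset] at hF hmax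
  refine ⟨F, hF.1, hF.2, fun y hy => ?_⟩
  by_contra hn
  have hn : ∀ x ∈ F, s < tdist y x := fun x hx => not_le.1 fun h => hn ⟨x, hx, h⟩
  have hyF : y ∉ F := fun h => by simpa [tdist_self] using hn y h
  have := hmax (insert y F) ⟨insert_subset hy hF.1, fun a ha b hb hab => by
    rcases mem_insert.1 ha with rfl | ha' <;> rcases mem_insert.1 hb with rfl | hb'
    · exact absurd rfl hab
    · exact hn b hb'
    · rw [tdist_comm]
      exact hn a ha'
    · exact hF.2 a ha' b hb' hab⟩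
  rw [card_insert_of_notMem hyF] at this
  omega

theorem netL : NetL := by
  intro n
  refine ⟨(2 * n + 1) ^ 2, fun M _ P s _ => ?_⟩
  obtain ⟨Z, h1, h2, h3⟩ := exists_net P s
  refine ⟨Z, h1, h3, fun x => ?_⟩
  have e : ∀ y : Tor M, x + prj M (lft (y - x)) = y := fun y => by
    rw [prj_lft, add_sub_cancel]
  have inj : Function.Injective fun y : Tor M => lft (y - x) := fun y y' h => by
    rw [← e y, ← e y']
    exact congrArg (fun v => x + prj M v) h
  rw [← card_image_of_injective _ inj]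
  refine B5a2.card_net (T := n * s) (s := s) (fun v hv => ?_) (fun v hv v' hv' hne => ?_)
    (by nlinarith)
  · obtain ⟨y, hy, rfl⟩ := mem_image.1 hv
    simpa [zd, tdist] using (mem_filter.1 hy).2
  · obtain ⟨y, hy, rfl⟩ := mem_image.1 hv
    obtain ⟨y', hy', rfl⟩ := mem_image.1 hv'
    have h4 := G.tdist_add_prj_le' x (lft (y - x)) (lft (y' - x))
    rw [e, e] at h4
    exact (h2 y (mem_filter.1 hy).1 y' (mem_filter.1 hy').1 fun h => hne (by rw [h])).trans_le h4

end Vale.Agent.P144L.T
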