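import Vale.Agent.P144L.Defs
import Vale.Agent.P144E.An3.Tele

/-!
From the homogeneous solutions to all fields.
-/

namespace Vale.Agent.P144L.T

open Finset Matrix Vale.Agent.P144Z Tele An3

variable {M : ℕ} [NeZero M] {A : Gauge M} {z : Tor M} {ρ : ℕ} {c β : ℝ}

theorem two (hd : HomDecH A z 8 ρ c β) (hs : Solv A z 8 ρ c) (hc : 1 ≤ c) (hβ : 0 < β)
    (hβ' : β ≤ 1 / 2) {s : ℕ} (h1 : 8 ≤ s) (h2 : s ≤ ρ) (w : Tor M × Fin 4 → ℝ) {H : ℝ}
    (a0 : nr (ball z ρ) w ≤ H) (a1 : ρ * nr (ball z ρ) (Dm A *ᵥ w) ≤ H) :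
    l2sq (ball z s) w * ρ ≤ (34 * c ^ 2) ^ 2 * s * H ^ 2 := by
  have hcc : c ≤ c ^ 2 := by nlinarith
  have hc0 : 0 ≤ c := by linarith
  have hH0 : 0 ≤ H := (nr_nonneg _ _).trans a0
  have hρ : (0 : ℝ) < ρ := by exact_mod_cast (by omega : 0 < ρ)
  have hs0 : (0 : ℝ) < s := by exact_mod_cast (by omega : 0 < s)
  obtain ⟨v, hv1, hv2⟩ := solv hs hc0 (h1.trans h2) le_rfl w
  have h3 := An3.step hd hs hc hβ hβ' (by omega) h1 w ρ h2 le_rfl v hv1 hv2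
  have h4 := decH hd hc0 (by omega) h1 h2 le_rfl hv2
  have h5 := nr_sub (ball z ρ) w v
  have h6 := (nr_mono (subset_univ (ball z ρ)) v).trans hv1
  set G := nr (ball z ρ) (Dm A *ᵥ w) with hG
  set a := (s : ℝ) ^ ((1 + β) / 2) with ha
  have ha0 : 0 ≤ a := by positivity
  have h7 : c * a * nr (ball z ρ) (w - v) ≤ c * a * (H + c * H) :=
    mul_le_mul_of_nonneg_left (by nlinarith) (by positivity)
  have h8 := mul_le_mul_of_nonneg_right h3 (Real.rpow_nonneg hρ.le ((1 + β) / 2))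
  have h9 : 32 * c ^ 2 * a * ((ρ : ℝ) ^ ((1 - β) / 2) * G) * (ρ : ℝ) ^ ((1 + β) / 2) ≤
      32 * c ^ 2 * a * H := by
    rw [mul_assoc]
    refine mul_le_mul_of_nonneg_left (le_of_eq_of_le ?_ a1) (by positivity)
    nth_rw 3 [← gh hρ β]
    ring
  have h10 : nr (ball z s) w * (ρ : ℝ) ^ ((1 + β) / 2) ≤ 34 * c ^ 2 * a * H := by
    have := mul_le_mul_of_nonneg_right hcc (mul_nonneg ha0 hH0)
    linarith
  have h11 := pow_le_pow_left₀ (mul_nonneg (nr_nonneg _ _) (by positivity)) h10 2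
  rw [mul_pow, nr_sq, mul_pow, mul_pow, rpow_sq hρ.le, ha, rpow_sq (by positivity),
    Real.rpow_add hρ, Real.rpow_add hs0, Real.rpow_one, Real.rpow_one] at h11
  have h12 : (s : ℝ) ^ β ≤ (ρ : ℝ) ^ β := Real.rpow_le_rpow hs0.le (by exact_mod_cast h2) hβ.le
  refine le_of_mul_le_mul_right ?_ (Real.rpow_pos_of_pos hρ β)
  have h13 := mul_le_mul_of_nonneg_left h12 (by positivity : 0 ≤ (34 * c ^ 2) ^ 2 * s * H ^ 2)
  linarith

theorem grad (hd : HomDecH A z 8 ρ c β) (hs : Solv A z 8 ρ c) (hc : 1 ≤ c) (hβ : 0 < β)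
    (hβ' : β ≤ 1 / 2) {s : ℕ} (h1 : 8 ≤ s) (h2 : s ≤ ρ) (w : Tor M × Fin 4 → ℝ) :
    l2sq (ball z s) (Dm A *ᵥ w) * (ρ : ℝ) ^ 3 ≤ (34 * c ^ 2) ^ 2 * s * hsq A ρ (ball z ρ) w := by
  set H := √(hsq A ρ (ball z ρ) w) with hH
  have hH0 : 0 ≤ H := Real.sqrt_nonneg _
  have hH2 : H ^ 2 = hsq A ρ (ball z ρ) w := Real.sq_sqrt (RN.hsq_nonneg _ _ _ _)
  have hρ : (0 : ℝ) < ρ := by exact_mod_cast (by omega : 0 < ρ)
  have a1 : ρ * nr (ball z ρ) (Dm A *ᵥ w) ≤ H := le_of_sq hH0 (by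
    rw [mul_pow, nr_sq, hH2]; exact E4.l2sq_D_le_hsq _ _ _ _)
  have a2 : ρ ^ 2 * nr (ball z ρ) (Dm A *ᵥ (Dm A *ᵥ w)) ≤ H := le_of_sq hH0 (by
    have := term_le A ρ (ball z ρ) w (k := 2) (by norm_num)
    rw [pow_two (Dm A), ← mulVec_mulVec] at this
    rw [mul_pow, nr_sq, hH2, ← pow_mul]
    exact this)
  have h3 := two hd hs hc hβ hβ' h1 h2 (Dm A *ᵥ w) (H := H / ρ)
    (by rw [le_div_iff₀ hρ]; linarith) (by rw [le_div_iff₀ hρ]; linarith)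
  rw [div_pow, mul_div_assoc', le_div_iff₀ (by positivity), hH2] at h3
  linarith

theorem sz {s r : ℕ} {Ω : ℝ} (h : HomSz A z s r Ω) (h0 : 0 ≤ Ω) {φ : Tor M × Fin 4 → ℝ}
    (hφ : Hom A z r φ) : nr (ball z s) φ * √r ≤ √Ω * √s * nr (ball z r) φ := by
  refine le_of_sq (mul_nonneg (by positivity) (nr_nonneg _ _)) ?_
  rw [mul_pow, mul_pow, mul_pow, nr_sq, nr_sq, Real.sq_sqrt h0, Real.sq_sqrt (by positivity),
    Real.sq_sqrt (by positivity)]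
  exact h φ hφ

theorem stp (hs : Solv A z 8 ρ c) (hc : 1 ≤ c) {s n : ℕ} (h1 : 8 ≤ s) (hn : ρ / 2 ^ n < s)
    {Ω : ℕ → ℝ} (h0 : ∀ k, 0 ≤ Ω k) (hΩ : ∀ k, s ≤ ρ / 2 ^ k → HomSz A z s (ρ / 2 ^ k) (Ω k))
    {w : Tor M × Fin 4 → ℝ} {G : ℝ} (hG0 : 0 ≤ G)
    (hG : ∀ r : ℕ, s ≤ r → r ≤ ρ → nr (ball z r) (Dm A *ᵥ w) ≤ G * √r) (d : ℕ) :
    ∀ k, k + d = n → s ≤ ρ / 2 ^ k → ∀ v,
      nr univ v ≤ c * (ρ / 2 ^ k : ℕ) * nr (ball z (ρ / 2 ^ k)) (Dm A *ᵥ w) →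
      Hom A z (ρ / 2 ^ k) (w - v) → nr (ball z s) w ≤ nr (ball z s) (w - v) +
        8 * c * G * √s * (ρ * ∑ j ∈ Ico (k + 1) n, √(Ω j) / 2 ^ j + s) := by
  induction d with
  | zero =>
    rintro k rfl h
    exact absurd hn (not_lt.2 h)
  | succ d ih =>
    intro k hk h2 v hv hh
    have hc0 : 0 ≤ c := by linarith
    have e : ρ / 2 ^ (k + 1) = ρ / 2 ^ k / 2 := by rw [pow_succ, Nat.div_div_eq_div_mul]
    have h3 : ρ / 2 ^ k ≤ ρ := Nat.div_le_self _ _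
    have hr' : ((ρ / 2 ^ k : ℕ) : ℝ) ≤ ρ / 2 ^ k := by exact_mod_cast Nat.cast_div_le
    have ih' := ih (k + 1) (by omega)
    have hΩ' := hΩ (k + 1)
    have hn' : s ≤ ρ / 2 ^ (k + 1) → k + 1 < n := fun h => by
      refine lt_of_le_of_ne (by omega) fun h' => ?_
      rw [h'] at h
      omega
    rw [e] at ih' hΩ' hn'
    generalize ρ / 2 ^ k = r at *
    have hs0 : (0 : ℝ) < s := by exact_mod_cast (by omega : 0 < s)
    have hg := hG r h2 h3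
    have hv' : nr univ v ≤ c * r * (G * √r) :=
      hv.trans (mul_le_mul_of_nonneg_left hg (by positivity))
    by_cases hr : r < 2 * s
    · have h4 := nr_add (ball z s) (w - v) v
      rw [sub_add_cancel] at h4
      have h5 := nr_mono (subset_univ (ball z s)) v
      have h6 : (r : ℝ) ≤ 2 * s := by exact_mod_cast hr.le
      have h7 : √(r : ℝ) ≤ 2 * √s := by
        refine le_of_sq (by positivity) ?_
        rw [mul_pow, Real.sq_sqrt hs0.le, Real.sq_sqrt (by positivity)]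
        linarith
      have h8 : c * r * (G * √r) ≤ c * (2 * s) * (G * (2 * √s)) := by gcongr
      have h9 : 0 ≤ c * G * √s * s := by positivity
      have h10 : 0 ≤ 8 * c * G * √s * (ρ * ∑ j ∈ Ico (k + 1) n, √(Ω j) / 2 ^ j) := by positivity
      linarith
    · obtain ⟨v', hv1, hv2⟩ := solv hs hc0 (r := r / 2) (by omega) (by omega) w
      have h4 := ih' (by omega) v' hv1 hv2
      have h5 : Hom A z (r / 2) (v - v') := fun t ht => by
        have e : v - v' = (w - v') - (w - v) := by abel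
        rw [e, mulVec_sub, Pi.sub_apply, hv2 t ht, hh t (ht.trans (Nat.div_le_self _ _)), sub_self]
      have h6 := sz (hΩ' (by omega)) (h0 _) h5
      have h7 := nr_add (ball z s) (w - v) (v - v')
      rw [sub_add_sub_cancel] at h7
      have hr0 : (0 : ℝ) < (r / 2 : ℕ) := by exact_mod_cast (by omega : 0 < r / 2)
      have hr3 : (r : ℝ) ≤ 4 * (r / 2 : ℕ) := by exact_mod_cast (by omega : r ≤ 4 * (r / 2))
      have hr2 : ((r / 2 : ℕ) : ℝ) ≤ r := by exact_mod_cast Nat.div_le_self r 2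
      have h8 : nr univ v' ≤ c * r * (G * √r) := hv1.trans (mul_le_mul
        (mul_le_mul_of_nonneg_left hr2 hc0)
        ((nr_mono (E3.ball_mono z (Nat.div_le_self _ _)) _).trans hg) (nr_nonneg _ _)
        (by positivity))
      have h11 : √(r : ℝ) ≤ 2 * √((r / 2 : ℕ) : ℝ) := by
        refine le_of_sq (by positivity) ?_
        rw [mul_pow, Real.sq_sqrt hr0.le, Real.sq_sqrt (by positivity)]
        linarith
      have h9 : nr (ball z (r / 2)) (v - v') ≤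
          2 * (c * (ρ / 2 ^ k) * (G * (2 * √((r / 2 : ℕ) : ℝ)))) := by
        have := (nr_mono (subset_univ (ball z (r / 2))) (v - v')).trans (nr_sub _ v v')
        have h10 : c * r * (G * √r) ≤ c * (ρ / 2 ^ k) * (G * (2 * √((r / 2 : ℕ) : ℝ))) := by
          gcongr
        linarith
      have h10 : nr (ball z s) (v - v') ≤ 8 * c * G * √s * (ρ * (√(Ω (k + 1)) / 2 ^ (k + 1))) := by
        refine le_of_mul_le_mul_right (h6.trans ?_) (Real.sqrt_pos.2 hr0)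
        refine (mul_le_mul_of_nonneg_left h9 (by positivity)).trans (le_of_eq ?_)
        rw [pow_succ]
        field_simp
        ring
      rw [sum_eq_sum_Ico_succ_bot (hn' (by omega))]
      linarith

theorem cs (Ω : ℕ → ℝ) (h0 : ∀ k, 0 ≤ Ω k) (n : ℕ) :
    (∑ j ∈ range n, √(Ω j) / 2 ^ j) ^ 2 ≤ 4 * ∑ j ∈ range n, Ω j / 3 ^ j := by
  have h1 := sum_sq_le_sum_mul_sum_of_sq_le_mul (range n) (r := fun j => √(Ω j) / 2 ^ j)
    (f := fun j => (3 / 4 : ℝ) ^ j) (g := fun j => Ω j / 3 ^ j) (fun j _ => by positivity)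
    (fun j _ => div_nonneg (h0 j) (by positivity)) fun j _ => le_of_eq (by
      rw [div_pow, Real.sq_sqrt (h0 j), div_pow, ← pow_mul, mul_comm j, pow_mul]
      field_simp
      norm_num)
  refine h1.trans (mul_le_mul_of_nonneg_right ?_
    (sum_nonneg fun j _ => div_nonneg (h0 j) (by positivity)))
  rw [geom_sum_eq (by norm_num), div_le_iff_of_neg (by norm_num)]
  have : (0 : ℝ) ≤ (3 / 4) ^ n := by positivity
  linarith

theorem telL : TelL := by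
  intro c β hc hβ hβ'
  have hc0 : 0 ≤ c := by linarith
  have hc2 : 1 ≤ c ^ 2 := one_le_pow₀ hc
  obtain ⟨C₁, hC₁⟩ : ∃ C₁, C₁ = 34 * c ^ 2 := ⟨_, rfl⟩
  have k1 : 1 ≤ C₁ := by linarith
  have k2 : 1 ≤ C₁ ^ 2 := one_le_pow₀ k1
  have k3 : C₁ ^ 2 ≤ 512 * c ^ 2 * C₁ ^ 2 := le_mul_of_one_le_left (by positivity) (by linarith)
  refine ⟨512 * c ^ 2 * C₁ ^ 2, k2.trans k3, fun M _ A z ρ hd hs => ⟨fun s h1 h2 w => ?_,
    fun s n Ω h1 h2 hn h0 hΩ w => ?_⟩⟩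
  · refine (grad hd hs hc hβ hβ' h1 h2 w).trans ?_
    rw [← hC₁]
    have := RN.hsq_nonneg A ρ (ball z ρ) w
    gcongr
  obtain ⟨H, hH⟩ : ∃ H, H = √(hsq A ρ (ball z ρ) w) := ⟨_, rfl⟩
  have hH0 : 0 ≤ H := hH ▸ Real.sqrt_nonneg _
  have hH2 : H ^ 2 = hsq A ρ (ball z ρ) w := hH ▸ Real.sq_sqrt (RN.hsq_nonneg _ _ _ _)
  have hρ : (0 : ℝ) < ρ := by exact_mod_cast (by omega : 0 < ρ)
  have hq : 0 < √(ρ : ℝ) := Real.sqrt_pos.2 hρ
  have a0 : nr (ball z ρ) w ≤ H := hH ▸ Real.sqrt_le_sqrt (E4.l2sq_le_hsq _ _ _ _)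
  have a1 : ρ * nr (ball z ρ) (Dm A *ᵥ w) ≤ H := le_of_sq hH0 (by
    rw [mul_pow, nr_sq, hH2]; exact E4.l2sq_D_le_hsq _ _ _ _)
  have hG : ∀ r : ℕ, s ≤ r → r ≤ ρ →
      nr (ball z r) (Dm A *ᵥ w) ≤ C₁ * H / (ρ * √ρ) * √r := fun r h3 h4 => by
    refine le_of_sq (by positivity) ?_
    have h5 := grad hd hs hc hβ hβ' (h1.trans h3) h4 w
    rw [← hC₁, ← hH2] at h5
    rw [nr_sq, mul_pow, div_pow, mul_pow, mul_pow, Real.sq_sqrt hρ.le,
      Real.sq_sqrt (Nat.cast_nonneg r), div_mul_eq_mul_div, le_div_iff₀ (by positivity)]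
    linarith
  obtain ⟨v, hv1, hv2⟩ := solv hs hc0 (h1.trans h2) le_rfl w
  have n0 : 0 < n := Nat.pos_of_ne_zero fun h => by
    rw [h, pow_zero, Nat.div_one] at hn
    omega
  have h3 := stp hs hc h1 hn h0 hΩ (by positivity) hG n 0 (zero_add _)
  have h4 := hΩ 0
  rw [pow_zero, Nat.div_one] at h3 h4
  have h5 := mul_le_mul_of_nonneg_right (h3 h2 v hv1 hv2) hq.le
  have h6 := sz (h4 h2) (h0 0) hv2
  have h7 := nr_sub (ball z ρ) w v
  have h8 := (nr_mono (subset_univ (ball z ρ)) v).trans hv1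
  have h9 : nr (ball z ρ) (w - v) ≤ 8 * c * C₁ * H := by
    have b1 := mul_le_mul_of_nonneg_left a1 hc0
    have b2 : H ≤ c * H := le_mul_of_one_le_left hH0 hc
    have b3 : c * H ≤ C₁ * (c * H) := le_mul_of_one_le_left (by positivity) k1
    linarith
  have h10 := mul_le_mul_of_nonneg_left h9 (by positivity : 0 ≤ √(Ω 0) * √s)
  have h11 := cs Ω h0 n
  set Y := ∑ j ∈ range n, Ω j / 3 ^ j
  rw [range_eq_Ico, sum_eq_sum_Ico_succ_bot n0, pow_zero, div_one] at h11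
  set X := ∑ j ∈ Ico (0 + 1) n, √(Ω j) / 2 ^ j
  have h12 : 8 * c * (C₁ * H / (ρ * √ρ)) * √s * (ρ * X + s) * √ρ =
      8 * c * C₁ * H * √s * (X + s / ρ) := by
    field_simp
  have h13 : nr (ball z s) w * √ρ ≤ 8 * c * C₁ * H * √s * (√(Ω 0) + X + s / ρ) := by
    rw [add_mul, h12] at h5
    linarith
  have h14 := pow_le_pow_left₀ (mul_nonneg (nr_nonneg _ _) hq.le) h13 2
  rw [mul_pow, nr_sq, Real.sq_sqrt hρ.le, mul_pow, mul_pow, Real.sq_sqrt (by positivity)] at h14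
  have h15 : (√(Ω 0) + X + s / ρ) ^ 2 ≤ 8 * (Y + (s / ρ) ^ 2) := by
    nlinarith [sq_nonneg (√(Ω 0) + X - s / ρ), sq_nonneg ((s : ℝ) / ρ)]
  have h16 := mul_le_mul_of_nonneg_left h15 (by positivity : 0 ≤ (8 * c * C₁ * H) ^ 2 * s)
  rw [← hH2]
  linarith

end Vale.Agent.P144L.T
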