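import Vale.Agent.P144L.T.Net
import Vale.Agent.P144L.T.Tel
import Vale.Agent.P144E.An1.Hol
import Vale.Agent.P144E.An2.Dec
import Vale.Agent.P144E.Ge1a.Main

/-!
The sizes of all fields along the boundary are summable.
-/

namespace Vale.Agent.P144L.T

open Finset Matrix Vale.Agent.P144Z

section

variable {M : ℕ} [NeZero M] {A : Gauge M} {y : Tor M}

theorem HomSz.up {s ρ ρ' q : ℕ} {Ω Ω' : ℝ} (h : HomSz A y s ρ Ω) (h0 : 0 ≤ Ω) (h1 : ρ ≤ ρ')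
    (h2 : ρ' ≤ q * ρ) (h3 : q * Ω ≤ Ω') : HomSz A y s ρ' Ω' := fun φ hφ => by
  have a1 := h φ fun t ht => hφ t (ht.trans h1)
  have a2 := E4.l2sq_mono (E3.ball_mono y h1) φ
  have a3 := E4.l2sq_nonneg (ball y s) φ
  have a4 := E4.l2sq_nonneg (ball y ρ) φ
  have a5 : (ρ' : ℝ) ≤ q * ρ := by exact_mod_cast h2
  calc l2sq (ball y s) φ * ρ' ≤ l2sq (ball y s) φ * (q * ρ) := by gcongr
    _ = q * (l2sq (ball y s) φ * ρ) := by ring
    _ ≤ q * (Ω * s * l2sq (ball y ρ) φ) := by gcongr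
    _ = q * Ω * s * l2sq (ball y ρ) φ := by ring
    _ ≤ Ω' * s * l2sq (ball y ρ') φ := by
      have : 0 ≤ Ω' := le_trans (by positivity) h3
      gcongr

theorem homSz_self (s : ℕ) : HomSz A y s s 1 := fun φ _ => le_of_eq (by ring)

end

/-- One scale. -/
theorem lev (hS : SzL) (hC : CntL) (N : ℕ) : ∃ Q C : ℕ, 1 ≤ Q ∧ ∀ (M : ℕ) [NeZero M] (R : Reg M)
    (B : Gauge M) (r : ℕ), LipT R.In r → Rgh R.In N r → Str R.pw B r → 4 * r ≤ M →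
    ∀ (z : Tor M) (s ρ m : ℕ) (Z : Finset (Tor M)), 8 ≤ s → s ≤ ρ → Q * ρ ≤ r →
    (∀ y ∈ Z, Bq R.In y ∧ tdist y z ≤ 10 * ρ) → MuT Z s m → ∀ k : ℕ, ∃ Ω : Tor M → ℝ,
      (∀ y, 0 ≤ Ω y) ∧ (∀ y ∈ Z, s ≤ ρ / 2 ^ k → HomSz (R.pw * B) y s (ρ / 2 ^ k) (Ω y)) ∧
        ∑ y ∈ Z, Ω y ≤ C * m * 2 ^ k := by
  classical
  obtain ⟨Q, C₁, hQ, hS⟩ := hS N
  obtain ⟨C₂, hC⟩ := hC
  obtain ⟨m₀, hN⟩ := netL 1
  refine ⟨Q + 2 * N + 12, Q * C₂ * (10 * Q + 1) + 2 * C₁ * (C₂ * m₀ * (20 * Q + 1)), by omega,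
    fun M _ R B r hL hR hB hM z s ρ m Z h1 h2 h3 hZ hm k => ?_⟩
  have q1 : Q * ρ + 2 * (N * ρ) + 12 * ρ ≤ r := le_of_eq_of_le (by ring) h3
  have q2 : N ≤ N * ρ := Nat.le_mul_of_pos_right _ (by omega)
  have p1 : 1 ≤ 2 ^ k := Nat.one_le_two_pow
  have q3 : ρ < 2 ^ k * (ρ / 2 ^ k + 1) := Nat.lt_mul_div_succ _ p1
  have q4 : ρ / 2 ^ k ≤ ρ := Nat.div_le_self _ _
  generalize ρ / 2 ^ k = t at *
  have q5 : t < Q * (t / Q + 1) := Nat.lt_mul_div_succ _ hQ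
  have q6 : Q * (t / Q) ≤ t := Nat.mul_div_le _ _
  generalize t / Q = u at *
  push_cast
  by_cases hu : u < s
  · have q7 : t + 1 ≤ Q * s := q5.trans_le (Nat.mul_le_mul_left _ hu)
    refine ⟨fun _ => Q, fun _ => by positivity, fun y _ h =>
      HomSz.up (homSz_self s) zero_le_one h (by omega) (mul_one _).le, ?_⟩
    have a1 := hC M R.In r hL hM z (10 * ρ) s m Z (by omega) (by omega) hZ hm
    have a2 : 10 * ρ / s + 1 ≤ (10 * Q + 1) * 2 ^ k := by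
      have : 10 * ρ / s ≤ 10 * Q * 2 ^ k := Nat.div_le_of_le_mul (by
        nlinarith [Nat.mul_le_mul_left (2 ^ k) q7])
      nlinarith
    have a3 : (Z.card : ℝ) ≤ C₂ * m * ((10 * Q + 1) * 2 ^ k) := by
      exact_mod_cast a1.trans (Nat.mul_le_mul_left _ a2)
    rw [sum_const, nsmul_eq_mul]
    have a4 := mul_le_mul_of_nonneg_right a3 (Nat.cast_nonneg (α := ℝ) Q)
    have a5 : (0 : ℝ) ≤ 2 * C₁ * (C₂ * m₀ * (20 * Q + 1)) * m * 2 ^ k := by positivity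
    linarith
  obtain ⟨Y, hY, hY1, hY2⟩ := hN M Z u (by omega)
  rw [one_mul] at hY2
  have key : ∀ b ∈ Y, ∃ Ω : Tor M → ℝ, (∀ y ∈ Z.filter fun y => tdist y b ≤ u,
      0 ≤ Ω y ∧ HomSz (R.pw * B) y s (Q * u) (Ω y)) ∧
      ∑ y ∈ Z.filter fun y => tdist y b ≤ u, Ω y ≤ C₁ * m := fun b hb =>
    hS M R B r hB.sign hL hR hM b s u m _ (hZ b (hY hb)).1 (by omega) (by omega)
      ((Nat.mul_le_mul_left _ (q6.trans q4)).trans (by omega))
      (flatW M R B N r hR hB b 1 _ (hZ b (hY hb)).1.2 (by omega))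
      (fun y hy => ⟨(hZ y (mem_filter.1 hy).1).1, (mem_filter.1 hy).2⟩)
      fun x => (card_le_card (filter_subset_filter _ (filter_subset _ _))).trans (hm x)
  choose! Ω hΩ hΩ' using key
  have nn : ∀ y, ∀ b ∈ Y, 0 ≤ if y ∈ Z.filter fun y => tdist y b ≤ u then Ω b y else 0 :=
    fun y b hb => by
      split_ifs with h
      · exact (hΩ b hb y h).1
      · exact le_rfl
  refine ⟨fun y => 2 * ∑ b ∈ Y, if y ∈ Z.filter fun y => tdist y b ≤ u then Ω b y else 0,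
    fun y => mul_nonneg zero_le_two (sum_nonneg (nn y)), fun y hy _ => ?_, ?_⟩
  · obtain ⟨b, hb, h⟩ := hY1 y hy
    have h' : y ∈ Z.filter fun y => tdist y b ≤ u := mem_filter.2 ⟨hy, h⟩
    refine HomSz.up (hΩ b hb y h').2 (hΩ b hb y h').1 q6 (q := 2) (by nlinarith) ?_
    have := single_le_sum (nn y) hb
    rw [if_pos h'] at this
    push_cast
    linarith
  · have a1 := hC M R.In r hL hM z (10 * ρ) u m₀ Y (by omega) (by omega)
      (fun y hy => hZ y (hY hy)) hY2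
    have a2 : 10 * ρ / u + 1 ≤ (20 * Q + 1) * 2 ^ k := by
      have q7 : t + 1 ≤ 2 * (Q * u) := by nlinarith
      have : 10 * ρ / u ≤ 20 * Q * 2 ^ k := Nat.div_le_of_le_mul (by
        nlinarith [Nat.mul_le_mul_left (2 ^ k) q7])
      nlinarith
    have a3 : (Y.card : ℝ) ≤ C₂ * m₀ * ((20 * Q + 1) * 2 ^ k) := by
      exact_mod_cast a1.trans (Nat.mul_le_mul_left _ a2)
    have a4 : ∑ y ∈ Z, ∑ b ∈ Y, (if y ∈ Z.filter fun y => tdist y b ≤ u then Ω b y else 0) ≤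
        Y.card * (C₁ * m) := by
      rw [sum_comm, ← nsmul_eq_mul]
      refine sum_le_card_nsmul _ _ _ fun b hb => le_of_eq_of_le ?_ (hΩ' b hb)
      rw [sum_ite_mem, inter_eq_right.2 (filter_subset _ _)]
    have a5 := mul_le_mul_of_nonneg_right a3 (by positivity : (0 : ℝ) ≤ C₁ * m)
    have a6 : (0 : ℝ) ≤ Q * C₂ * (10 * Q + 1) * m * 2 ^ k := by positivity
    rw [← mul_sum]
    linarith

theorem szG (hS : SzL) (hC : CntL) : SzG := by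
  intro N
  obtain ⟨Q₁, C₁, hQ, h₁⟩ := lev hS hC N
  obtain ⟨c, β, hc, hβ, hβ', Q₂, h₂⟩ := decH_of holS N
  obtain ⟨C₃, hC₃, h₃⟩ := telL c β hc hβ hβ'
  obtain ⟨C₂, hC⟩ := hC
  obtain ⟨C₄, hC₄⟩ := exists_nat_ge C₃
  refine ⟨Q₁ + 2 * Q₂ + 2 * N + 12, C₄ * (3 * C₁ + 11 * C₂), by omega,
    fun M _ R B r hL hR hB hM z s ρ m Z h1 h2 h3 hZ hm => ?_⟩
  have q1 : Q₁ * ρ + 2 * (Q₂ * ρ) + 2 * (N * ρ) + 12 * ρ ≤ r := le_of_eq_of_le (by ring) h3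
  have q2 : N ≤ N * ρ := Nat.le_mul_of_pos_right _ (by omega)
  have q3 : Q₂ ≤ Q₂ * ρ := Nat.le_mul_of_pos_right _ (by omega)
  choose Ω h0 hΩ hs using h₁ M R B r hL hR hB hM z s ρ m Z h1 h2 (by omega) hZ hm
  have n1 : ∀ y, 0 ≤ ∑ k ∈ range ρ, Ω k y / 3 ^ k + ((s : ℝ) / ρ) ^ 2 := fun y =>
    add_nonneg (sum_nonneg fun k _ => div_nonneg (h0 k y) (by positivity)) (sq_nonneg _)
  refine ⟨fun y => C₃ * (∑ k ∈ range ρ, Ω k y / 3 ^ k + ((s : ℝ) / ρ) ^ 2), fun y hy =>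
    ⟨mul_nonneg (by linarith) (n1 y), ?_⟩, ?_⟩
  · obtain ⟨d1, d2⟩ := h₂ M R B r y hB.sign hR hM (hZ y hy).1.1 ρ (by rw [mul_add]; omega)
      (flatW M R B N r hR hB y 1 _ (hZ y hy).1.2 (by omega))
    refine (h₃ M _ y ρ d1 d2).2 s ρ (fun k => Ω k y) h1 h2 ?_ (fun k => h0 k y) fun k => hΩ k y hy
    rw [Nat.div_eq_of_lt Nat.lt_two_pow_self]
    omega
  · have hρ : (0 : ℝ) < ρ := by exact_mod_cast (by omega : 0 < ρ)
    have hs0 : (0 : ℝ) < s := by exact_mod_cast (by omega : 0 < s)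
    have hsρ : (s : ℝ) / ρ ≤ 1 := (div_le_one hρ).2 (by exact_mod_cast h2)
    have a1 : ∑ y ∈ Z, ∑ k ∈ range ρ, Ω k y / 3 ^ k ≤ 3 * (C₁ * m) := by
      rw [sum_comm]
      calc ∑ k ∈ range ρ, ∑ y ∈ Z, Ω k y / 3 ^ k ≤ ∑ k ∈ range ρ, C₁ * m * (2 / 3 : ℝ) ^ k :=
            sum_le_sum fun k _ => by
              rw [← sum_div, div_pow, ← mul_div_assoc]
              exact div_le_div_of_nonneg_right (hs k) (by positivity)
        _ ≤ 3 * (C₁ * m) := by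
            rw [← mul_sum, mul_comm]
            refine mul_le_mul_of_nonneg_right ?_ (by positivity)
            rw [geom_sum_eq (by norm_num), div_le_iff_of_neg (by norm_num)]
            have : (0 : ℝ) ≤ (2 / 3) ^ ρ := by positivity
            linarith
    have a2 : (Z.card : ℝ) ≤ C₂ * m * ((10 * ρ / s : ℕ) + 1) := by
      exact_mod_cast hC M R.In r hL hM z (10 * ρ) s m Z (by omega) (by omega) hZ hm
    have a3 : ((10 * ρ / s : ℕ) : ℝ) * (s / ρ) ≤ 10 := by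
      have : ((10 * ρ / s : ℕ) : ℝ) * s ≤ 10 * ρ := by exact_mod_cast Nat.div_mul_le_self _ _
      rwa [← mul_div_assoc, div_le_iff₀ hρ]
    have a4 : (Z.card : ℝ) * ((s : ℝ) / ρ) ^ 2 ≤ 11 * (C₂ * m) := by
      have b0 : (0 : ℝ) ≤ s / ρ := by positivity
      have b1 : (((10 * ρ / s : ℕ) : ℝ) + 1) * ((s : ℝ) / ρ) ^ 2 ≤ 11 := by
        nlinarith [mul_le_mul a3 hsρ b0 (by norm_num)]
      have b2 := mul_le_mul_of_nonneg_right a2 (sq_nonneg ((s : ℝ) / ρ))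
      have b3 := mul_le_mul_of_nonneg_left b1 (by positivity : (0 : ℝ) ≤ C₂ * m)
      linarith
    rw [← mul_sum, sum_add_distrib, sum_const, nsmul_eq_mul]
    push_cast
    calc _ ≤ C₃ * (3 * (C₁ * m) + 11 * (C₂ * m)) := by gcongr
      _ ≤ C₄ * (3 * (C₁ * m) + 11 * (C₂ * m)) := by gcongr
      _ = _ := by ring

end Vale.Agent.P144L.T
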